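import Mathlib
import Vale.Agent.P229.BoxFinal

open scoped ContDiff RealInnerProductSpace

namespace Vale.Agent.Results.P229.NoImmersion

/-- A smooth metric on the plane without a smooth local isometric immersion into space at the
origin. -/
theorem result :
    ∃ g : ℝ × ℝ → Matrix (Fin 2) (Fin 2) ℝ,
      (∀ i j : Fin 2, ContDiff ℝ ∞ fun z => g z i j) ∧ (∀ z, (g z).PosDef) ∧
      ∀ U : Set (ℝ × ℝ), IsOpen U → (0 : ℝ × ℝ) ∈ U →
        ¬ ∃ F : ℝ × ℝ → EuclideanSpace ℝ (Fin 3), ContDiffOn ℝ ∞ F U ∧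
          ∀ z ∈ U, ∀ i j : Fin 2,
            ⟪fderiv ℝ F z (![((1 : ℝ), (0 : ℝ)), ((0 : ℝ), (1 : ℝ))] i),
              fderiv ℝ F z (![((1 : ℝ), (0 : ℝ)), ((0 : ℝ), (1 : ℝ))] j)⟫ = g z i j := by
  obtain ⟨g, hs, hsym, hpos, hno⟩ := Vale.Agent.P229.noLocalImmersion
  refine ⟨g, hs, fun z => ?_, fun U hU h0 ⟨F, hF, hE⟩ => hno U hU h0 ⟨F, hF, fun z hz i j => ?_⟩⟩
  · refine Matrix.PosDef.of_dotProduct_mulVec_pos ?_ fun v hv => ?_
    · ext i j
      simp [hsym z j i]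
    · simp only [star_trivial, dotProduct, Matrix.mulVec, Finset.mul_sum]
      refine lt_of_lt_of_eq (hpos z v hv) (Finset.sum_congr rfl fun i _ => ?_)
      exact Finset.sum_congr rfl fun j _ => by ring
  · rw [← hE z hz i j]
    fin_cases i <;> fin_cases j <;> rfl

end Vale.Agent.Results.P229.NoImmersion
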